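import Mathlib
import Vale.Agent.P011.H496.Spl.PL

/-!
# The real places where the involution is hermitian (helper434)

`A` is an invertible hermitian matrix.  Every invertible matrix `x` has a multiple `u * x` by a
matrix `u` with `u A uᴴ = A` such that `u x A + (u x A)ᴴ` is congruent to `A`.
-/

open Matrix Polynomial
open scoped ComplexOrder

namespace Vale.Agent.P011.H434

section sqrt

variable {p : Type*} [Fintype p] [DecidableEq p]

/-- Spectral form of a hermitian matrix. -/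
theorem exists_spec {G : Matrix p p ℂ} (hG : G.IsHermitian) :
    ∃ (U : Matrix p p ℂ) (l : p → ℝ), Uᴴ * U = 1 ∧ U * Uᴴ = 1 ∧
      G = U * diagonal (fun i => (l i : ℂ)) * Uᴴ :=
  ⟨(hG.eigenvectorUnitary : Matrix p p ℂ), hG.eigenvalues,
    Matrix.mem_unitaryGroup_iff'.mp hG.eigenvectorUnitary.2,
    Matrix.mem_unitaryGroup_iff.mp hG.eigenvectorUnitary.2, hG.spectral_theorem⟩

theorem posDef_of_spec {U : Matrix p p ℂ} {l : p → ℝ} (hU : Uᴴ * U = 1) (hl : ∀ i, 0 < l i) :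
    (U * diagonal (fun i => (l i : ℂ)) * Uᴴ).PosDef := by
  have h1 : (diagonal (fun i => (l i : ℂ))).PosDef := by
    apply Matrix.PosDef.diagonal
    intro i
    exact_mod_cast hl i
  refine h1.mul_mul_conjTranspose_same ?_
  have hU2 : U * Uᴴ = 1 := mul_eq_one_comm.mp hU
  intro v w hvw
  have h2 := congrArg (fun z => z ᵥ* Uᴴ) hvw
  simpa [Matrix.vecMul_vecMul, hU2] using h2

theorem spec_pos {U : Matrix p p ℂ} {l : p → ℝ} (hU : Uᴴ * U = 1)
    (h : (U * diagonal (fun i => (l i : ℂ)) * Uᴴ).PosDef) (i : p) : 0 < l i := by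
  have h1 := h.conjTranspose_mul_mul_same (B := U) (fun v w hvw => by
    have h2 := congrArg (fun z => Uᴴ *ᵥ z) hvw
    simpa [Matrix.mulVec_mulVec, hU] using h2)
  have h3 : Uᴴ * (U * diagonal (fun i => (l i : ℂ)) * Uᴴ) * U = diagonal (fun i => (l i : ℂ)) := by
    calc Uᴴ * (U * diagonal (fun i => (l i : ℂ)) * Uᴴ) * U
        = (Uᴴ * U) * diagonal (fun i => (l i : ℂ)) * (Uᴴ * U) := by simp only [mul_assoc]
      _ = _ := by rw [hU, one_mul, mul_one]
  rw [h3] at h1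
  have h4 := h1.diag_pos (i := i)
  rw [diagonal_apply_eq] at h4
  exact_mod_cast h4

/-- Square roots of positive definite matrices. -/
theorem exists_sqrt {G : Matrix p p ℂ} (hG : G.PosDef) : ∃ R : Matrix p p ℂ, R.PosDef ∧ R * R = G := by
  obtain ⟨U, l, hU, hU2, h⟩ := exists_spec hG.isHermitian
  have hl : ∀ i, 0 < l i := spec_pos hU (h ▸ hG)
  refine ⟨U * diagonal (fun i => ((Real.sqrt (l i) : ℝ) : ℂ)) * Uᴴ,
    posDef_of_spec hU fun i => Real.sqrt_pos.mpr (hl i), ?_⟩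
  calc U * diagonal (fun i => ((Real.sqrt (l i) : ℝ) : ℂ)) * Uᴴ *
        (U * diagonal (fun i => ((Real.sqrt (l i) : ℝ) : ℂ)) * Uᴴ)
      = U * (diagonal (fun i => ((Real.sqrt (l i) : ℝ) : ℂ)) * (Uᴴ * U) *
          diagonal (fun i => ((Real.sqrt (l i) : ℝ) : ℂ))) * Uᴴ := by simp only [mul_assoc]
    _ = U * diagonal (fun i => (l i : ℂ)) * Uᴴ := by
        rw [hU, mul_one, diagonal_mul_diagonal]
        congr 3
        funext i
        rw [← Complex.ofReal_mul, Real.mul_self_sqrt (hl i).le]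
    _ = G := h.symm

/-- `1 - s G` is positive definite for small `s`. -/
theorem small {G : Matrix p p ℂ} (hG : G.IsHermitian) :
    ∃ ε : ℝ, 0 < ε ∧ ∀ s : ℝ, 0 ≤ s → s < ε → (1 - (s : ℂ) • G).PosDef := by
  obtain ⟨U, l, hU, hU2, h⟩ := exists_spec hG
  let M : ℝ := 1 + ∑ i, |l i|
  have hM : 0 < M := by positivity
  refine ⟨M⁻¹, inv_pos.mpr hM, fun s hs hs2 => ?_⟩
  have h1 : 1 - (s : ℂ) • G = U * diagonal (fun i => ((1 - s * l i : ℝ) : ℂ)) * Uᴴ := by
    have h2 : diagonal (fun i => ((1 - s * l i : ℝ) : ℂ)) =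
        1 - (s : ℂ) • diagonal (fun i => (l i : ℂ)) := by
      ext i j
      by_cases hij : i = j
      · subst hij
        simp
      · simp [hij]
    rw [h2, mul_sub, sub_mul, mul_one, hU2, Matrix.mul_smul, Matrix.smul_mul, ← h]
  rw [h1]
  refine posDef_of_spec hU fun i => ?_
  have h3 : l i ≤ M - 1 := by
    have : |l i| ≤ ∑ i, |l i| :=
      Finset.single_le_sum (f := fun i => |l i|) (fun _ _ => abs_nonneg _) (Finset.mem_univ i)
    have h4 := le_abs_self (l i)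
    simp only [M]
    linarith
  have h5 : s * M < 1 := by
    rw [inv_eq_one_div] at hs2
    exact (lt_div_iff₀ hM).mp hs2
  nlinarith

end sqrt

section block

variable {p q : Type*} [Fintype p] [DecidableEq p] [Fintype q] [DecidableEq q]

/-- The diagonal matrix of signs. -/
def JJ (p q : Type*) [DecidableEq p] [DecidableEq q] : Matrix (p ⊕ q) (p ⊕ q) ℂ :=
  fromBlocks 1 0 0 (-1)

theorem isUnit_of_mul {p : Type*} [Fintype p] [DecidableEq p] {a b : Matrix p p ℂ} (h : a * b = 1) :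
    IsUnit a := IsUnit.of_mul_eq_one b h

/-- A block matrix with a positive and a negative definite diagonal block. -/
theorem congr_block {G : Matrix p p ℂ} {F : Matrix q q ℂ} (hG : G.PosDef) (hF : F.PosDef)
    (B : Matrix p q ℂ) :
    ∃ Q : Matrix (p ⊕ q) (p ⊕ q) ℂ, IsUnit Q ∧ fromBlocks G B Bᴴ (-F) = Q * JJ p q * Qᴴ := by
  obtain ⟨R, hR, hRR⟩ := exists_sqrt hG
  have hR1 : Rᴴ = R := hR.isHermitian
  have hRu : R * R⁻¹ = 1 := mul_nonsing_inv _ ((isUnit_iff_isUnit_det R).mp hR.isUnit)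
  have hRi : (R⁻¹)ᴴ = R⁻¹ := by rw [conjTranspose_nonsing_inv, hR1]
  let T : Matrix q p ℂ := Bᴴ * R⁻¹
  have hT : R * Tᴴ = B := by
    simp only [T, conjTranspose_mul, conjTranspose_conjTranspose, hRi]
    rw [← Matrix.mul_assoc, hRu, Matrix.one_mul]
  have hP : (F + T * Tᴴ).PosDef := hF.add_posSemidef (posSemidef_self_mul_conjTranspose T)
  obtain ⟨S, hS, hSS⟩ := exists_sqrt hP
  have hS1 : Sᴴ = S := hS.isHermitian
  refine ⟨fromBlocks R 0 T S, ?_, ?_⟩
  · rw [isUnit_iff_isUnit_det, det_fromBlocks_zero₁₂]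
    exact ((isUnit_iff_isUnit_det R).mp hR.isUnit).mul ((isUnit_iff_isUnit_det S).mp hS.isUnit)
  · have hT2 : T * R = Bᴴ := by
      have := congrArg conjTranspose hT
      rwa [conjTranspose_mul, conjTranspose_conjTranspose, hR1] at this
    rw [JJ, fromBlocks_conjTranspose, fromBlocks_multiply, fromBlocks_multiply]
    simp only [Matrix.mul_one, Matrix.mul_zero, add_zero, zero_add, conjTranspose_zero, hR1, hS1,
      Matrix.mul_neg, Matrix.neg_mul, hT, hT2, hRR, hSS, Matrix.zero_mul, neg_zero]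
    congr 1
    abel

/-- Polar decomposition of an invertible matrix. -/
theorem exists_polar {r : Type*} [Fintype r] [DecidableEq r] {a : Matrix r r ℂ} (ha : IsUnit a) :
    ∃ u P : Matrix r r ℂ, u * uᴴ = 1 ∧ P.PosDef ∧ u * a = P := by
  have hdet := (isUnit_iff_isUnit_det a).mp ha
  have h1 : (aᴴ * a).PosDef := PosDef.conjTranspose_mul_self a (by
    intro v w hvw
    have h2 := congrArg (fun z => a⁻¹ *ᵥ z) hvw
    simpa [Matrix.mulVec_mulVec, nonsing_inv_mul _ hdet] using h2)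
  obtain ⟨P, hP, hPP⟩ := exists_sqrt h1
  have hP1 : Pᴴ = P := hP.isHermitian
  have hPd := (isUnit_iff_isUnit_det P).mp hP.isUnit
  refine ⟨P * a⁻¹, P, ?_, hP, by rw [mul_assoc, nonsing_inv_mul _ hdet, mul_one]⟩
  have h3 : (P * P)⁻¹ = a⁻¹ * (a⁻¹)ᴴ := by
    rw [hPP, Matrix.mul_inv_rev, conjTranspose_nonsing_inv]
  calc P * a⁻¹ * (P * a⁻¹)ᴴ = P * (a⁻¹ * (a⁻¹)ᴴ) * P := by
        rw [conjTranspose_mul, hP1]; simp only [mul_assoc]
    _ = P * (P⁻¹ * P⁻¹) * P := by rw [← h3, Matrix.mul_inv_rev]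
    _ = (P * P⁻¹) * (P⁻¹ * P) := by simp only [mul_assoc]
    _ = 1 := by rw [mul_nonsing_inv _ hPd, nonsing_inv_mul _ hPd, one_mul]

/-- The block lemma: both diagonal blocks are invertible. -/
theorem block_unitary {a : Matrix p p ℂ} {b : Matrix p q ℂ} {c : Matrix q p ℂ} {d : Matrix q q ℂ}
    (ha : IsUnit a) (hd : IsUnit d) :
    ∃ u Q : Matrix (p ⊕ q) (p ⊕ q) ℂ, u * JJ p q * uᴴ = JJ p q ∧ IsUnit Q ∧
      u * fromBlocks a b c d * JJ p q + (u * fromBlocks a b c d * JJ p q)ᴴ = Q * JJ p q * Qᴴ := by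
  obtain ⟨u, P, hu, hP, hua⟩ := exists_polar ha
  obtain ⟨v, S, hv, hS, hvd⟩ := exists_polar hd
  have hP1 : Pᴴ = P := hP.isHermitian
  have hS1 : Sᴴ = S := hS.isHermitian
  obtain ⟨Q, hQ, hQ2⟩ := congr_block (hP.add hP) (hS.add hS) (-(u * b) + (v * c)ᴴ)
  refine ⟨fromBlocks u 0 0 v, Q, ?_, hQ, ?_⟩
  · rw [JJ, fromBlocks_conjTranspose, fromBlocks_multiply, fromBlocks_multiply]
    simp only [Matrix.mul_one, Matrix.mul_zero, add_zero, zero_add, conjTranspose_zero,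
      Matrix.mul_neg, Matrix.neg_mul, Matrix.zero_mul, neg_zero, hu, hv]
  · rw [← hQ2, JJ, fromBlocks_multiply, fromBlocks_multiply, fromBlocks_conjTranspose,
      fromBlocks_add]
    simp only [Matrix.mul_one, Matrix.mul_zero, add_zero, zero_add, Matrix.mul_neg,
      Matrix.zero_mul, hua, hvd, conjTranspose_neg, hP1, hS1, conjTranspose_add,
      conjTranspose_conjTranspose]
    congr 1
    · exact add_comm _ _
    · abel

/-- Left multiplication by a matrix close to the identity in block form. -/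
theorem exists_shift {a : Matrix p p ℂ} {c : Matrix q p ℂ}
    (h : ∀ v, a *ᵥ v = 0 → c *ᵥ v = 0 → v = 0) : ∃ Y : Matrix p q ℂ, (a + Y * c).det ≠ 0 := by
  classical
  let A := a.mulVecLin
  let C := c.mulVecLin
  obtain ⟨K', hK'⟩ := Submodule.exists_isCompl (LinearMap.range A)
  have hfin : Module.finrank ℂ (LinearMap.ker A) = Module.finrank ℂ K' := by
    have h1 := LinearMap.finrank_range_add_finrank_ker A
    have h2 := Submodule.finrank_add_eq_of_isCompl hK'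
    omega
  let e : LinearMap.ker A ≃ₗ[ℂ] K' := LinearEquiv.ofFinrankEq _ _ hfin
  let C1 : LinearMap.ker A →ₗ[ℂ] (q → ℂ) := C ∘ₗ (LinearMap.ker A).subtype
  have hC1 : LinearMap.ker C1 = ⊥ := by
    rw [LinearMap.ker_eq_bot']
    intro v hv
    apply Subtype.ext
    exact h v.1 (LinearMap.mem_ker.mp v.2) hv
  obtain ⟨L, hL⟩ := C1.exists_leftInverse_of_injective hC1
  let Y : (q → ℂ) →ₗ[ℂ] (p → ℂ) := K'.subtype ∘ₗ e.toLinearMap ∘ₗ L
  refine ⟨LinearMap.toMatrix' Y, ?_⟩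
  intro hdet
  obtain ⟨v, hv0, hv⟩ := Matrix.exists_mulVec_eq_zero_iff.mpr hdet
  apply hv0
  rw [Matrix.add_mulVec, ← Matrix.mulVec_mulVec, ← Matrix.toLin'_apply (LinearMap.toMatrix' Y),
    Matrix.toLin'_toMatrix'] at hv
  have hY : Y (c *ᵥ v) ∈ K' := (e (L (c *ᵥ v))).2
  have h1 : a *ᵥ v ∈ LinearMap.range A := ⟨v, rfl⟩
  have h2 : a *ᵥ v = -Y (c *ᵥ v) := eq_neg_of_add_eq_zero_left hv
  have h3 : a *ᵥ v ∈ LinearMap.range A ⊓ K' := ⟨h1, by rw [h2]; exact K'.neg_mem hY⟩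
  rw [hK'.inf_eq_bot, Submodule.mem_bot] at h3
  have h4 : Y (c *ᵥ v) = 0 := by rw [h3, zero_add] at hv; exact hv
  have hvk : v ∈ LinearMap.ker A := h3
  have h5 : L (c *ᵥ v) = ⟨v, hvk⟩ := by
    have := LinearMap.congr_fun hL ⟨v, hvk⟩
    exact this
  have h6 : ((e ⟨v, hvk⟩ : K') : p → ℂ) = 0 := by
    rw [← h5]; exact h4
  have h7 : e ⟨v, hvk⟩ = 0 := Subtype.ext h6
  have h8 : (⟨v, hvk⟩ : LinearMap.ker A) = 0 := by
    rw [← e.map_eq_zero_iff]; exact h7
  exact congrArg Subtype.val h8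

/-- A common small shift. -/
theorem exists_small {x : Matrix (p ⊕ q) (p ⊕ q) ℂ} (hx : IsUnit x) :
    ∃ Y : Matrix p q ℂ, (1 - Y * Yᴴ).PosDef ∧ (1 - Yᴴ * Y).PosDef ∧
      (x.toBlocks₁₁ + Y * x.toBlocks₂₁).det ≠ 0 ∧ (x.toBlocks₂₂ + Yᴴ * x.toBlocks₁₂).det ≠ 0 := by
  classical
  have hx0 : ∀ v, x *ᵥ v = 0 → v = 0 := by
    intro v hv
    have hdet := (isUnit_iff_isUnit_det x).mp hx
    have h2 := congrArg (fun z => x⁻¹ *ᵥ z) hv
    simpa [Matrix.mulVec_mulVec, nonsing_inv_mul _ hdet] using h2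
  have hxb : x = fromBlocks x.toBlocks₁₁ x.toBlocks₁₂ x.toBlocks₂₁ x.toBlocks₂₂ :=
    (fromBlocks_toBlocks x).symm
  set a := x.toBlocks₁₁
  set b := x.toBlocks₁₂
  set c := x.toBlocks₂₁
  set d := x.toBlocks₂₂
  have h1 : ∀ v, a *ᵥ v = 0 → c *ᵥ v = 0 → v = 0 := by
    intro v hav hcv
    have h2 : x *ᵥ (Sum.elim v 0) = 0 := by
      rw [hxb, fromBlocks_mulVec]
      simp [hav, hcv]
    have h3 := hx0 _ h2
    funext i
    exact congrFun h3 (Sum.inl i)
  have h2 : ∀ v, d *ᵥ v = 0 → b *ᵥ v = 0 → v = 0 := by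
    intro v hav hcv
    have h2 : x *ᵥ (Sum.elim 0 v) = 0 := by
      rw [hxb, fromBlocks_mulVec]
      simp [hav, hcv]
    have h3 := hx0 _ h2
    funext i
    exact congrFun h3 (Sum.inr i)
  obtain ⟨Y1, hY1⟩ := exists_shift h1
  obtain ⟨Z2, hZ2⟩ := exists_shift h2
  let F : Bool → Matrix p q ℂ → ℂ := fun t Y =>
    if t then (a + Y * c).det else (d + Yᴴ * b).det
  have hPL : ∀ t, Vale.Agent.P011.H496.Spl.PL ℝ (F t) := by
    intro t
    cases t
    · simp only [F, Bool.false_eq_true, if_false]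
      refine Vale.Agent.P011.H496.Spl.PL.det fun i j => ?_
      simp only [Matrix.add_apply]
      refine (Vale.Agent.P011.H496.Spl.PL.const _).add (Vale.Agent.P011.H496.Spl.PL.of_lin ?_)
      intro Y Z t
      simp only [conjTranspose_add, conjTranspose_smul, star_trivial, Matrix.add_mul,
        Matrix.smul_mul, Matrix.add_apply, Matrix.smul_apply, Complex.real_smul,
        Complex.coe_algebraMap]
    · simp only [F, if_true]
      refine Vale.Agent.P011.H496.Spl.PL.det fun i j => ?_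
      simp only [Matrix.add_apply]
      refine (Vale.Agent.P011.H496.Spl.PL.const _).add (Vale.Agent.P011.H496.Spl.PL.of_lin ?_)
      intro Y Z t
      simp only [Matrix.add_mul,
        Matrix.smul_mul, Matrix.add_apply, Matrix.smul_apply, Complex.real_smul,
        Complex.coe_algebraMap]
  obtain ⟨Y0, hY0⟩ := Vale.Agent.P011.H496.Spl.exists_common (k := ℝ) Finset.univ
    (fun t _ => hPL t) (by
      intro t _
      cases t
      · refine ⟨Z2ᴴ, ?_⟩
        simpa [F] using hZ2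
      · exact ⟨Y1, by simpa [F] using hY1⟩)
  have hT := hY0 true (Finset.mem_univ _)
  have hF := hY0 false (Finset.mem_univ _)
  obtain ⟨P, hP⟩ := hPL true 0 Y0
  obtain ⟨R, hR⟩ := hPL false 0 Y0
  have hP0 : P ≠ 0 := by
    rintro rfl
    have := hP 1
    rw [one_smul, zero_add, eval_zero] at this
    exact hT this
  have hR0 : R ≠ 0 := by
    rintro rfl
    have := hR 1
    rw [one_smul, zero_add, eval_zero] at this
    exact hF this
  obtain ⟨ε1, hε1, h3⟩ := small (G := Y0 * Y0ᴴ) (isHermitian_mul_conjTranspose_self Y0)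
  obtain ⟨ε2, hε2, h4⟩ := small (G := Y0ᴴ * Y0) (isHermitian_conjTranspose_mul_self Y0)
  have hfin : {t : ℝ | (P * R).eval ((t : ℝ) : ℂ) = 0}.Finite := by
    have h5 := (P * R).roots.toFinset.finite_toSet
    refine (h5.preimage Complex.ofReal_injective.injOn).subset fun t ht => ?_
    rw [Set.mem_preimage, Finset.mem_coe, Multiset.mem_toFinset, mem_roots (mul_ne_zero hP0 hR0)]
    exact ht
  obtain ⟨t, ht1, ht2⟩ := ((Set.Ioo_infinite (show (0 : ℝ) < min 1 (min ε1 ε2) by positivity)).sdiff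
    hfin).nonempty
  have ht3 : t < 1 := lt_of_lt_of_le ht1.2 (min_le_left _ _)
  have ht4 : t < ε1 := lt_of_lt_of_le ht1.2 ((min_le_right _ _).trans (min_le_left _ _))
  have ht5 : t < ε2 := lt_of_lt_of_le ht1.2 ((min_le_right _ _).trans (min_le_right _ _))
  have ht0 : 0 < t := ht1.1
  have htt : t * t < t := by nlinarith
  have ht6 : (P * R).eval ((t : ℝ) : ℂ) ≠ 0 := ht2
  rw [eval_mul] at ht6
  refine ⟨t • Y0, ?_, ?_, ?_, ?_⟩
  · have h5 := h3 (t * t) (by positivity) (htt.trans ht4)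
    convert h5 using 2
    rw [conjTranspose_smul, star_trivial, Matrix.smul_mul, Matrix.mul_smul, smul_smul]
    rfl
  · have h5 := h4 (t * t) (by positivity) (htt.trans ht5)
    convert h5 using 2
    rw [conjTranspose_smul, star_trivial, Matrix.smul_mul, Matrix.mul_smul, smul_smul]
    rfl
  · have h5 := hP t
    rw [zero_add] at h5
    intro h6
    apply left_ne_zero_of_mul ht6
    rw [← Complex.coe_algebraMap, ← h5]
    simpa [F] using h6
  · have h5 := hR t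
    rw [zero_add] at h5
    intro h6
    apply right_ne_zero_of_mul ht6
    rw [← Complex.coe_algebraMap, ← h5]
    simpa [F] using h6

/-- **The block form of the theorem.** -/
theorem exists_block {x : Matrix (p ⊕ q) (p ⊕ q) ℂ} (hx : IsUnit x) :
    ∃ u Q : Matrix (p ⊕ q) (p ⊕ q) ℂ, u * JJ p q * uᴴ = JJ p q ∧ IsUnit Q ∧
      u * x * JJ p q + (u * x * JJ p q)ᴴ = Q * JJ p q * Qᴴ := by
  obtain ⟨Y, h1, h2, h3, h4⟩ := exists_small hx
  obtain ⟨R, hR, hRR⟩ := exists_sqrt h1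
  obtain ⟨S, hS, hSS⟩ := exists_sqrt h2
  have hR1 : Rᴴ = R := hR.isHermitian
  have hS1 : Sᴴ = S := hS.isHermitian
  have hRd := (isUnit_iff_isUnit_det R).mp hR.isUnit
  have hSd := (isUnit_iff_isUnit_det S).mp hS.isUnit
  have hRi : (R⁻¹)ᴴ = R⁻¹ := by rw [conjTranspose_nonsing_inv, hR1]
  have hSi : (S⁻¹)ᴴ = S⁻¹ := by rw [conjTranspose_nonsing_inv, hS1]
  let g : Matrix (p ⊕ q) (p ⊕ q) ℂ := fromBlocks R⁻¹ (R⁻¹ * Y) (S⁻¹ * Yᴴ) S⁻¹
  have hg : g * JJ p q * gᴴ = JJ p q := by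
    have e1 : R⁻¹ * R⁻¹ + -(R⁻¹ * Y) * (Yᴴ * R⁻¹) = 1 := by
      calc R⁻¹ * R⁻¹ + -(R⁻¹ * Y) * (Yᴴ * R⁻¹) = R⁻¹ * (1 - Y * Yᴴ) * R⁻¹ := by
            rw [Matrix.mul_sub, Matrix.sub_mul, Matrix.mul_one, Matrix.neg_mul, ← sub_eq_add_neg]
            simp only [Matrix.mul_assoc]
        _ = (R⁻¹ * R) * (R * R⁻¹) := by rw [← hRR]; simp only [Matrix.mul_assoc]
        _ = 1 := by rw [mul_nonsing_inv _ hRd, nonsing_inv_mul _ hRd, Matrix.one_mul]
    have e2 : S⁻¹ * Yᴴ * (Y * S⁻¹) + -S⁻¹ * S⁻¹ = -1 := by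
      calc S⁻¹ * Yᴴ * (Y * S⁻¹) + -S⁻¹ * S⁻¹ = -(S⁻¹ * (1 - Yᴴ * Y) * S⁻¹) := by
            rw [Matrix.mul_sub, Matrix.sub_mul, Matrix.mul_one, Matrix.neg_mul, neg_sub,
              ← sub_eq_add_neg]
            simp only [Matrix.mul_assoc]
        _ = -((S⁻¹ * S) * (S * S⁻¹)) := by rw [← hSS]; simp only [Matrix.mul_assoc]
        _ = -1 := by rw [mul_nonsing_inv _ hSd, nonsing_inv_mul _ hSd, Matrix.one_mul]
    have e3 : R⁻¹ * (Y * S⁻¹) + -(R⁻¹ * Y) * S⁻¹ = 0 := by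
      rw [Matrix.neg_mul, Matrix.mul_assoc, add_neg_cancel]
    have e4 : S⁻¹ * Yᴴ * R⁻¹ + -S⁻¹ * (Yᴴ * R⁻¹) = 0 := by
      rw [Matrix.neg_mul, Matrix.mul_assoc, add_neg_cancel]
    simp only [g, JJ]
    rw [fromBlocks_conjTranspose, fromBlocks_multiply, fromBlocks_multiply]
    simp only [Matrix.mul_one, Matrix.mul_zero, add_zero, zero_add, Matrix.mul_neg,
      conjTranspose_mul, conjTranspose_conjTranspose, hRi, hSi]
    rw [e1, e2, e3, e4]
  have hgx : g * x = fromBlocks (R⁻¹ * (x.toBlocks₁₁ + Y * x.toBlocks₂₁))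
      (R⁻¹ * (x.toBlocks₁₂ + Y * x.toBlocks₂₂)) (S⁻¹ * (Yᴴ * x.toBlocks₁₁ + x.toBlocks₂₁))
      (S⁻¹ * (x.toBlocks₂₂ + Yᴴ * x.toBlocks₁₂)) := by
    conv_lhs => rw [← fromBlocks_toBlocks x]
    simp only [g]
    rw [fromBlocks_multiply]
    simp only [Matrix.mul_add, Matrix.mul_assoc]
    congr 1
    exact add_comm _ _
  have hu1 : IsUnit (R⁻¹ * (x.toBlocks₁₁ + Y * x.toBlocks₂₁)) := by
    rw [isUnit_iff_isUnit_det, det_mul]
    exact ((isUnit_nonsing_inv_det_iff).mpr hRd).mul (isUnit_iff_ne_zero.mpr h3)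
  have hu2 : IsUnit (S⁻¹ * (x.toBlocks₂₂ + Yᴴ * x.toBlocks₁₂)) := by
    rw [isUnit_iff_isUnit_det, det_mul]
    exact ((isUnit_nonsing_inv_det_iff).mpr hSd).mul (isUnit_iff_ne_zero.mpr h4)
  obtain ⟨u, Q, hu, hQ, hQ2⟩ := block_unitary (b := R⁻¹ * (x.toBlocks₁₂ + Y * x.toBlocks₂₂))
    (c := S⁻¹ * (Yᴴ * x.toBlocks₁₁ + x.toBlocks₂₁)) hu1 hu2
  refine ⟨u * g, Q, ?_, hQ, ?_⟩
  · calc u * g * JJ p q * (u * g)ᴴ = u * (g * JJ p q * gᴴ) * uᴴ := by
          rw [conjTranspose_mul]; simp only [Matrix.mul_assoc]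
      _ = JJ p q := by rw [hg, hu]
  · rw [← hQ2, ← hgx]
    simp only [Matrix.mul_assoc]

end block

section gen

variable {ι : Type*} [Fintype ι] [DecidableEq ι]

/-- Sylvester's law in rectangular letters. -/
theorem exists_frame {A : Matrix ι ι ℂ} (hA : Aᴴ = A) (hu : IsUnit A) :
    ∃ (l : ι → ℝ) (R : Matrix ι ({i // 0 < l i} ⊕ {i // ¬ 0 < l i}) ℂ)
      (S : Matrix ({i // 0 < l i} ⊕ {i // ¬ 0 < l i}) ι ℂ), S * R = 1 ∧ R * S = 1 ∧
      A = R * JJ {i // 0 < l i} {i // ¬ 0 < l i} * Rᴴ := by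
  obtain ⟨U, l, hU, hU2, h⟩ := exists_spec (G := A) hA
  have hl : ∀ i, l i ≠ 0 := by
    intro i hi
    have h1 : A.det = 0 := by
      rw [h, det_mul, det_mul, det_diagonal, Finset.prod_eq_zero (Finset.mem_univ i)
        (by rw [hi, Complex.ofReal_zero]), mul_zero, zero_mul]
    exact ((isUnit_iff_isUnit_det A).mp hu).ne_zero h1
  let D : Matrix ι ι ℂ := diagonal fun i => ((Real.sqrt |l i| : ℝ) : ℂ)
  let D' : Matrix ι ι ℂ := diagonal fun i => (((Real.sqrt |l i|)⁻¹ : ℝ) : ℂ)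
  let e : {i // 0 < l i} ⊕ {i // ¬ 0 < l i} ≃ ι := Equiv.sumCompl fun i => 0 < l i
  have hs : ∀ i, Real.sqrt |l i| ≠ 0 := fun i =>
    (Real.sqrt_pos.mpr (abs_pos.mpr (hl i))).ne'
  have hDD : D * D' = 1 := by
    simp only [D, D']
    rw [diagonal_mul_diagonal, ← diagonal_one]
    congr 1
    funext i
    rw [← Complex.ofReal_mul, mul_inv_cancel₀ (hs i), Complex.ofReal_one]
  have hDD' : D' * D = 1 := mul_eq_one_comm.mp hDD
  refine ⟨l, (U * D).submatrix id e, (D' * Uᴴ).submatrix e id, ?_, ?_, ?_⟩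
  · rw [Matrix.submatrix_mul _ _ _ _ _ Function.bijective_id |>.symm]
    have h1 : D' * Uᴴ * (U * D) = 1 := by
      calc D' * Uᴴ * (U * D) = D' * (Uᴴ * U) * D := by simp only [Matrix.mul_assoc]
        _ = 1 := by rw [hU, Matrix.mul_one, hDD']
    rw [h1, Matrix.submatrix_one_equiv]
  · rw [← Matrix.submatrix_mul _ _ _ _ _ e.bijective]
    have h1 : U * D * (D' * Uᴴ) = 1 := by
      calc U * D * (D' * Uᴴ) = U * (D * D') * Uᴴ := by simp only [Matrix.mul_assoc]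
        _ = 1 := by rw [hDD, Matrix.mul_one, hU2]
    rw [h1, Matrix.submatrix_id_id]
  · let σ : ι → ℝ := fun i => if 0 < l i then 1 else -1
    have hσp : ∀ i, 0 < l i → σ i = 1 := fun i hi => if_pos hi
    have hσn : ∀ i, ¬ 0 < l i → σ i = -1 := fun i hi => if_neg hi
    have hJ : JJ {i // 0 < l i} {i // ¬ 0 < l i} =
        (diagonal fun i => (σ i : ℂ)).submatrix e e := by
      ext i j
      rw [Matrix.submatrix_apply]
      rcases i with i | i <;> rcases j with j | j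
      · by_cases hij : i = j
        · subst hij
          change _ = diagonal (fun i => (σ i : ℂ)) (i : ι) (i : ι)
          rw [diagonal_apply_eq, hσp _ i.2]
          simp [JJ]
        · have hij' : (i : ι) ≠ j := fun h => hij (Subtype.ext h)
          change _ = diagonal (fun i => (σ i : ℂ)) (i : ι) (j : ι)
          rw [diagonal_apply_ne _ hij']
          simp [JJ, hij]
      · have hij' : (i : ι) ≠ j := fun h => j.2 (h ▸ i.2)
        change _ = diagonal (fun i => (σ i : ℂ)) (i : ι) (j : ι)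
        rw [diagonal_apply_ne _ hij']
        simp [JJ]
      · have hij' : (i : ι) ≠ j := fun h => i.2 (h ▸ j.2)
        change _ = diagonal (fun i => (σ i : ℂ)) (i : ι) (j : ι)
        rw [diagonal_apply_ne _ hij']
        simp [JJ]
      · by_cases hij : i = j
        · subst hij
          change _ = diagonal (fun i => (σ i : ℂ)) (i : ι) (i : ι)
          rw [diagonal_apply_eq, hσn _ i.2]
          simp [JJ]
        · have hij' : (i : ι) ≠ j := fun h => hij (Subtype.ext h)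
          change _ = diagonal (fun i => (σ i : ℂ)) (i : ι) (j : ι)
          rw [diagonal_apply_ne _ hij']
          simp [JJ, hij]
    rw [hJ, Matrix.conjTranspose_submatrix, ← Matrix.submatrix_mul _ _ _ _ _ e.bijective,
      ← Matrix.submatrix_mul _ _ _ _ _ e.bijective, Matrix.submatrix_id_id]
    have h2 : D * (diagonal fun i => (σ i : ℂ)) * Dᴴ = diagonal fun i => (l i : ℂ) := by
      have hDh : Dᴴ = D := by
        simp only [D, diagonal_conjTranspose]
        congr 1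
        funext i
        simp
      rw [hDh]
      simp only [D]
      rw [diagonal_mul_diagonal, diagonal_mul_diagonal]
      congr 1
      funext i
      rw [← Complex.ofReal_mul, ← Complex.ofReal_mul]
      congr 1
      have h3 := Real.mul_self_sqrt (abs_nonneg (l i))
      by_cases hi : 0 < l i
      · rw [hσp i hi, mul_one, h3, abs_of_pos hi]
      · have hi' : l i < 0 := lt_of_le_of_ne (not_lt.mp hi) (hl i)
        have : Real.sqrt |l i| * -1 * Real.sqrt |l i| = -(Real.sqrt |l i| * Real.sqrt |l i|) := by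
          ring
        rw [hσn i hi, this, h3, abs_of_neg hi', neg_neg]
    calc A = U * diagonal (fun i => (l i : ℂ)) * Uᴴ := h
      _ = U * (D * (diagonal fun i => (σ i : ℂ)) * Dᴴ) * Uᴴ := by
          rw [h2]
      _ = _ := by rw [conjTranspose_mul]; simp only [Matrix.mul_assoc]

/-- **Every invertible matrix is a pseudo-unitary matrix times a matrix of type `A`.** -/
theorem exists_type {A x : Matrix ι ι ℂ} (hA : Aᴴ = A) (hu : IsUnit A) (hx : IsUnit x) :
    ∃ u Q : Matrix ι ι ℂ, u * A * uᴴ = A ∧ IsUnit Q ∧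
      u * x * A + (u * x * A)ᴴ = Q * A * Qᴴ := by
  obtain ⟨l, R, S, hSR, hRS, hAR⟩ := exists_frame hA hu
  have hx' : IsUnit (S * x * R) := by
    obtain ⟨y, hy⟩ := hx.exists_right_inv
    refine isUnit_of_mul (b := S * y * R) ?_
    calc S * x * R * (S * y * R) = S * (x * ((R * S) * (y * R))) := by simp only [Matrix.mul_assoc]
      _ = S * ((x * y) * R) := by rw [hRS, Matrix.one_mul, Matrix.mul_assoc]
      _ = 1 := by rw [hy, Matrix.one_mul, hSR]
  obtain ⟨u, Q, hu1, hQ, hQ2⟩ := exists_block hx'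
  have hSRh : Rᴴ * Sᴴ = 1 := by rw [← conjTranspose_mul, hSR, conjTranspose_one]
  refine ⟨R * u * S, R * Q * S, ?_, ?_, ?_⟩
  · calc R * u * S * A * (R * u * S)ᴴ
        = R * u * S * (R * JJ {i // 0 < l i} {i // ¬ 0 < l i} * Rᴴ) * (R * u * S)ᴴ := by rw [← hAR]
      _ = R * (u * ((S * R) * (JJ _ _ * ((Rᴴ * Sᴴ) * uᴴ)))) * Rᴴ := by
          simp only [conjTranspose_mul, Matrix.mul_assoc]
      _ = R * (u * JJ _ _ * uᴴ) * Rᴴ := by
          rw [hSR, hSRh, Matrix.one_mul, Matrix.one_mul]; simp only [Matrix.mul_assoc]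
      _ = A := by rw [hu1, ← hAR]
  · obtain ⟨y, hy⟩ := hQ.exists_right_inv
    refine isUnit_of_mul (b := R * y * S) ?_
    calc R * Q * S * (R * y * S) = R * (Q * ((S * R) * (y * S))) := by simp only [Matrix.mul_assoc]
      _ = R * ((Q * y) * S) := by rw [hSR, Matrix.one_mul, Matrix.mul_assoc]
      _ = 1 := by rw [hy, Matrix.one_mul, hRS]
  · have e1 : R * u * S * x * A = R * (u * (S * x * R) * JJ _ _) * Rᴴ := by
      calc R * u * S * x * A
          = R * u * S * x * (R * JJ {i // 0 < l i} {i // ¬ 0 < l i} * Rᴴ) := by rw [← hAR]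
        _ = _ := by simp only [Matrix.mul_assoc]
    have e2 : R * Q * S * A * (R * Q * S)ᴴ = R * (Q * JJ _ _ * Qᴴ) * Rᴴ := by
      calc R * Q * S * A * (R * Q * S)ᴴ
          = R * Q * S * (R * JJ {i // 0 < l i} {i // ¬ 0 < l i} * Rᴴ) * (R * Q * S)ᴴ := by
            rw [← hAR]
        _ = R * (Q * ((S * R) * (JJ _ _ * ((Rᴴ * Sᴴ) * Qᴴ)))) * Rᴴ := by
            simp only [conjTranspose_mul, Matrix.mul_assoc]
        _ = _ := by rw [hSR, hSRh, Matrix.one_mul, Matrix.one_mul]; simp only [Matrix.mul_assoc]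
    rw [e1, e2, ← hQ2, Matrix.mul_add, Matrix.add_mul]
    congr 1
    rw [conjTranspose_mul, conjTranspose_mul, conjTranspose_conjTranspose, ← Matrix.mul_assoc]

/-- Hermitian matrices with small entries after subtracting the identity are positive. -/
theorem posDef_of_near_one {M : Matrix ι ι ℂ} (hM : M.IsHermitian)
    (h : ∀ i j, ‖M i j - (1 : Matrix ι ι ℂ) i j‖ * (Fintype.card ι : ℝ) < 1) : M.PosDef := by
  refine PosDef.of_dotProduct_mulVec_pos hM fun x hx => ?_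
  set N : Matrix ι ι ℂ := M - 1 with hN
  have hMN : M = 1 + N := by rw [hN]; abel
  have him : (star x ⬝ᵥ M *ᵥ x).im = 0 := hM.im_star_dotProduct_mulVec_self x
  have hsum : star x ⬝ᵥ M *ᵥ x = (∑ i, ‖x i‖ ^ 2 : ℝ) + ∑ i, ∑ j, star (x i) * (N i j * x j) := by
    rw [hMN, Matrix.add_mulVec, Matrix.one_mulVec, dotProduct_add]
    congr 1
    · simp only [dotProduct, Pi.star_apply, Complex.ofReal_sum]
      refine Finset.sum_congr rfl fun i _ => ?_
      rw [RCLike.star_def, RCLike.conj_mul]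
      simp
    · simp only [dotProduct, mulVec, Pi.star_apply, Finset.mul_sum]
  have hpos : 0 < ∑ i, ‖x i‖ ^ 2 := by
    obtain ⟨i, hi⟩ := Function.ne_iff.mp hx
    exact Finset.sum_pos' (fun _ _ => by positivity) ⟨i, Finset.mem_univ i, by
      have : x i ≠ 0 := hi
      positivity⟩
  have hcard : 0 < (Fintype.card ι : ℝ) := by
    obtain ⟨i, _⟩ := Function.ne_iff.mp hx
    exact_mod_cast Fintype.card_pos_iff.mpr ⟨i⟩
  have hne : Nonempty ι := by
    obtain ⟨i, _⟩ := Function.ne_iff.mp hx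
    exact ⟨i⟩
  -- the largest entry
  obtain ⟨δ, hδ0, hδ1, hδ⟩ : ∃ δ : ℝ, 0 ≤ δ ∧ δ * (Fintype.card ι : ℝ) < 1 ∧ ∀ i j, ‖N i j‖ ≤ δ := by
    obtain ⟨⟨i0, j0⟩, h0⟩ := Finite.exists_max (fun ij : ι × ι => ‖N ij.1 ij.2‖)
    exact ⟨‖N i0 j0‖, norm_nonneg _, h i0 j0, fun i j => h0 (i, j)⟩
  have hbound : ‖∑ i, ∑ j, star (x i) * (N i j * x j)‖ ≤ δ * (∑ i, ‖x i‖) ^ 2 := by
    calc ‖∑ i, ∑ j, star (x i) * (N i j * x j)‖
        ≤ ∑ i, ∑ j, ‖star (x i) * (N i j * x j)‖ :=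
          (norm_sum_le _ _).trans (Finset.sum_le_sum fun i _ => norm_sum_le _ _)
      _ ≤ ∑ i, ∑ j, δ * (‖x i‖ * ‖x j‖) := by
          refine Finset.sum_le_sum fun i _ => Finset.sum_le_sum fun j _ => ?_
          rw [norm_mul, norm_mul, norm_star]
          calc ‖x i‖ * (‖N i j‖ * ‖x j‖) = ‖N i j‖ * (‖x i‖ * ‖x j‖) := by ring
            _ ≤ δ * (‖x i‖ * ‖x j‖) := mul_le_mul_of_nonneg_right (hδ i j) (by positivity)
      _ = δ * (∑ i, ‖x i‖) ^ 2 := by
          rw [pow_two, Finset.sum_mul_sum]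
          simp only [Finset.mul_sum]
  have hcs : (∑ i, ‖x i‖) ^ 2 ≤ (Fintype.card ι : ℝ) * ∑ i, ‖x i‖ ^ 2 := by
    have := sq_sum_le_card_mul_sum_sq (s := (Finset.univ : Finset ι)) (f := fun i => ‖x i‖)
    simpa using this
  rw [Complex.lt_def]
  refine ⟨?_, him.symm⟩
  rw [hsum, Complex.add_re, Complex.zero_re, Complex.ofReal_re]
  have h1 := (abs_le.mp ((Complex.abs_re_le_norm _).trans hbound)).1
  have h2 : δ * (∑ i, ‖x i‖) ^ 2 ≤ δ * ((Fintype.card ι : ℝ) * ∑ i, ‖x i‖ ^ 2) :=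
    mul_le_mul_of_nonneg_left hcs hδ0
  have h3 : δ * ((Fintype.card ι : ℝ) * ∑ i, ‖x i‖ ^ 2) < ∑ i, ‖x i‖ ^ 2 := by
    rw [← mul_assoc]
    calc δ * (Fintype.card ι : ℝ) * ∑ i, ‖x i‖ ^ 2 < 1 * ∑ i, ‖x i‖ ^ 2 :=
          mul_lt_mul_of_pos_right hδ1 hpos
      _ = _ := one_mul _
  linarith

/-- **The type is an open condition.** -/
theorem isOpen_type {A : Matrix ι ι ℂ} (hA : Aᴴ = A) (hu : IsUnit A) :
    IsOpen {z : Matrix ι ι ℂ | ∃ Q : Matrix ι ι ℂ, IsUnit Q ∧ z * A + (z * A)ᴴ = Q * A * Qᴴ} := by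
  obtain ⟨l, R, S, hSR, hRS, hAR⟩ := exists_frame hA hu
  rw [isOpen_iff_eventually]
  rintro z0 ⟨Q0, hQ0, hz0⟩
  obtain ⟨T0, hT0⟩ := hQ0.exists_right_inv
  have hT0' : T0 * Q0 = 1 := mul_eq_one_comm.mp hT0
  have hSRh : Rᴴ * Sᴴ = 1 := by rw [← conjTranspose_mul, hSR, conjTranspose_one]
  have hTQh : Q0ᴴ * T0ᴴ = 1 := by rw [← conjTranspose_mul, hT0', conjTranspose_one]
  let P := {i // 0 < l i}
  let N := {i // ¬ 0 < l i}
  let H : Matrix ι ι ℂ → Matrix (P ⊕ N) (P ⊕ N) ℂ := fun z =>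
    S * T0 * (z * A + (z * A)ᴴ) * T0ᴴ * Sᴴ
  have hH0 : H z0 = JJ P N := by
    simp only [H]
    rw [hz0]
    calc S * T0 * (Q0 * A * Q0ᴴ) * T0ᴴ * Sᴴ
        = S * T0 * (Q0 * (R * JJ P N * Rᴴ) * Q0ᴴ) * T0ᴴ * Sᴴ := by rw [← hAR]
      _ = S * ((T0 * Q0) * (R * (JJ P N * (Rᴴ * ((Q0ᴴ * T0ᴴ) * Sᴴ))))) := by
          simp only [Matrix.mul_assoc]
      _ = (S * R) * (JJ P N * (Rᴴ * Sᴴ)) := by
          rw [hT0', hTQh, Matrix.one_mul, Matrix.one_mul]; simp only [Matrix.mul_assoc]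
      _ = JJ P N := by rw [hSR, hSRh, Matrix.one_mul, Matrix.mul_one]
  have hHh : ∀ z, (H z)ᴴ = H z := by
    intro z
    simp only [H, conjTranspose_mul, conjTranspose_add, conjTranspose_conjTranspose]
    rw [add_comm]
    simp only [Matrix.mul_assoc]
  have hHc : Continuous H := by
    simp only [H]
    fun_prop
  have h11 : ∀ᶠ z in nhds z0, ∀ i j : P,
      ‖(H z).toBlocks₁₁ i j - (1 : Matrix P P ℂ) i j‖ * (Fintype.card P : ℝ) < 1 := by
    rw [Filter.eventually_all]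
    intro i
    rw [Filter.eventually_all]
    intro j
    have hc : Continuous fun z =>
        ‖(H z).toBlocks₁₁ i j - (1 : Matrix P P ℂ) i j‖ * (Fintype.card P : ℝ) := by
      simp only [toBlocks₁₁, of_apply]
      fun_prop
    refine hc.continuousAt.eventually_lt continuousAt_const ?_
    rw [hH0, JJ, toBlocks_fromBlocks₁₁, sub_self, norm_zero, zero_mul]
    exact one_pos
  have h22 : ∀ᶠ z in nhds z0, ∀ i j : N,
      ‖(-(H z).toBlocks₂₂) i j - (1 : Matrix N N ℂ) i j‖ * (Fintype.card N : ℝ) < 1 := by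
    rw [Filter.eventually_all]
    intro i
    rw [Filter.eventually_all]
    intro j
    have hc : Continuous fun z =>
        ‖(-(H z).toBlocks₂₂) i j - (1 : Matrix N N ℂ) i j‖ * (Fintype.card N : ℝ) := by
      simp only [toBlocks₂₂, of_apply, Matrix.neg_apply]
      fun_prop
    refine hc.continuousAt.eventually_lt continuousAt_const ?_
    rw [hH0, JJ, toBlocks_fromBlocks₂₂, neg_neg, sub_self, norm_zero, zero_mul]
    exact one_pos
  filter_upwards [h11, h22] with z h1 h2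
  have hb := fromBlocks_toBlocks (H z)
  have hh := hHh z
  rw [← hb, fromBlocks_conjTranspose] at hh
  obtain ⟨e1, e2, e3, e4⟩ := fromBlocks_inj.mp hh
  have hG : (H z).toBlocks₁₁.PosDef := posDef_of_near_one e1 h1
  have hF : (-(H z).toBlocks₂₂).PosDef := posDef_of_near_one
    (by rw [Matrix.IsHermitian, conjTranspose_neg, e4]) h2
  obtain ⟨Q, hQ, hQ2⟩ := congr_block hG hF (H z).toBlocks₁₂
  rw [neg_neg, e3, hb] at hQ2
  refine ⟨Q0 * R * Q * S, ?_, ?_⟩
  · obtain ⟨y, hy⟩ := hQ.exists_right_inv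
    refine isUnit_of_mul (b := R * y * S * T0) ?_
    calc Q0 * R * Q * S * (R * y * S * T0)
        = Q0 * (R * (Q * ((S * R) * (y * (S * T0))))) := by simp only [Matrix.mul_assoc]
      _ = Q0 * (R * ((Q * y) * (S * T0))) := by rw [hSR, Matrix.one_mul, Matrix.mul_assoc Q y]
      _ = Q0 * ((R * S) * T0) := by rw [hy, Matrix.one_mul, Matrix.mul_assoc]
      _ = 1 := by rw [hRS, Matrix.one_mul, hT0]
  · have hT0h : T0ᴴ * Q0ᴴ = 1 := by rw [← conjTranspose_mul, hT0, conjTranspose_one]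
    have hSh : Sᴴ * Rᴴ = 1 := by rw [← conjTranspose_mul, hRS, conjTranspose_one]
    calc z * A + (z * A)ᴴ
        = (Q0 * ((R * S) * (T0 * (z * A + (z * A)ᴴ) * (T0ᴴ * ((Sᴴ * Rᴴ) * Q0ᴴ))))) := by
          rw [hRS, hSh, Matrix.one_mul, Matrix.one_mul, hT0h, Matrix.mul_one, ← Matrix.mul_assoc,
            hT0, Matrix.one_mul]
      _ = Q0 * R * H z * (Q0 * R)ᴴ := by
          simp only [H, conjTranspose_mul, Matrix.mul_assoc]
      _ = Q0 * R * (Q * JJ P N * Qᴴ) * (Q0 * R)ᴴ := by rw [hQ2]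
      _ = (Q0 * R * Q * S) * (R * JJ P N * Rᴴ) * (Q0 * R * Q * S)ᴴ := by
          calc Q0 * R * (Q * JJ P N * Qᴴ) * (Q0 * R)ᴴ
              = Q0 * (R * (Q * ((S * R) * (JJ P N * ((Rᴴ * Sᴴ) * (Qᴴ * (Q0 * R)ᴴ)))))) := by
                rw [hSR, hSRh, Matrix.one_mul, Matrix.one_mul]
                simp only [Matrix.mul_assoc]
            _ = _ := by simp only [conjTranspose_mul, Matrix.mul_assoc]
      _ = (Q0 * R * Q * S) * A * (Q0 * R * Q * S)ᴴ := by rw [← hAR]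

end gen

end Vale.Agent.P011.H434
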